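import Vale.Agent.P088.R2.H850.E.LwL
import Vale.Agent.P088.R2.H747.A.Rows
import Vale.Agent.P088.R2.H509.EP.Lit2
import Vale.Agent.P088.R2.H281.EP.Prs
import Vale.Agent.P088.R2.H455.E.Rows

/-!
# P088, stage 3, EST': the margin of the leaf `A1` near the diagonal

On `|x - y|² ≤ n` the margin of `a² + b²` of the leaf `A1` is at least `c E / R`.
-/

open Set Filter
open scoped ContDiff Topology Matrix

noncomputable section

namespace Vale.Agent.P088.R2.H294.E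

open Vale.Agent.P088.LR
open Vale.Agent.P088.HY (VV)
open Vale.Agent.P088.R2.H31.EP
open Vale.Agent.P088.R2.H961.GW
open Vale.Agent.P088.R2.H464.Cu (mid dif rq bf)
open Vale.Agent.P088.R2.H222 (dl)
open Vale.Agent.P088.R2.H747.A (OmA OmB GG NG ff rr lS D₂ Wx2 Wy2 mA)

variable {n : ℕ} {q : Cst} {d : Pk n}

/-- The second tensor is close to `1`. -/
theorem s₂_close (h : PkOk q d) (x : V n) (i j : Fin n) : |d.s₂ x i j - dl i j| ≤ q.ε := by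
  have := h.rg.cl₂ i j 0 (by norm_num) x
  rwa [norm_iteratedFDeriv_zero, pow_zero, mul_one, Real.norm_eq_abs] at this

/-- `F ≥ |W_x|² / 2`. -/
theorem F_x (h : PkOk q d) (hε : n * q.ε ≤ 1 / 2) (W : VV n → ℝ) (z : VV n) :
    1 / 2 * ∑ i, d.sx.D i W z ^ 2 ≤ d.sx.F W z := by
  have h1 := bf_close (h.s₁_close z.1) (fun i => d.sx.D i W z)
  have h2 : d.sx.F W z = bf (d.s₁ z.1) (fun i => d.sx.D i W z) (fun i => d.sx.D i W z) := rfl
  have h3 : 0 ≤ ∑ i, d.sx.D i W z ^ 2 := Finset.sum_nonneg fun _ _ => sq_nonneg _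
  rw [h2]
  have h4 := (abs_le.1 h1).1
  have h5 := mul_le_mul_of_nonneg_right hε h3
  linarith

theorem F_y (h : PkOk q d) (hε : n * q.ε ≤ 1 / 2) (W : VV n → ℝ) (z : VV n) :
    1 / 2 * ∑ i, d.sy.D i W z ^ 2 ≤ d.sy.F W z := by
  have h1 := bf_close (s₂_close h z.2) (fun i => d.sy.D i W z)
  have h2 : d.sy.F W z = bf (d.s₂ z.2) (fun i => d.sy.D i W z) (fun i => d.sy.D i W z) := rfl
  have h3 : 0 ≤ ∑ i, d.sy.D i W z ^ 2 := Finset.sum_nonneg fun _ _ => sq_nonneg _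
  rw [h2]
  have h4 := (abs_le.1 h1).1
  have h5 := mul_le_mul_of_nonneg_right hε h3
  linarith

/-- `G = E S(r²)` where `r < r₁ / e`. -/
theorem GG_in (h : PkOk q d) (he : 0 < q.e₁) {z : VV n} (h0 : 0 < d.r2 z)
    (h1 : rr d z < q.r₁ * Real.exp (-1)) : GG q d z = d.E q z * prS q.e₁ (d.r2 z) := by
  have hr : 0 < rr d z := Real.sqrt_pos.2 h0
  have h2 : rr d z ^ 2 = d.r2 z := Real.sq_sqrt h0.le
  have h3 := h.sl.inn 1 0 (ff q d z, rr d z) hr h1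
  rw [if_pos rfl] at h3
  unfold GG D₂
  rw [h3]
  show Real.exp (d.u q z + lS q (rr d z)) = _
  have h4 : 0 < prS q.e₁ (d.r2 z) := (H281.EP.pp_ok he).S_pos h0
  unfold lS
  rw [Real.exp_add, h2, Real.exp_log h4]
  rfl

/-- `r < r₁ / e` on `|x - y|² ≤ n`. -/
theorem ev_r₁ (n : ℕ) : EvC fun q => 0 < q.c' → √(2 * n) < q.r₁ * Real.exp (-1) := by
  have h : EvC fun q => 0 < q.b_M₀.c' → √(2 * n) < q.b_M₀.c' * q.M₀ / 2 * Real.exp (-1) :=
    EvC.at_M₀ (fun q t => 0 < q.c' → √(2 * n) < q.c' * t / 2 * Real.exp (-1)) fun q => by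
      by_cases h : 0 < q.c'
      · have h1 : Tendsto (fun t : ℝ => q.c' * t / 2 * Real.exp (-1)) atTop atTop := by
          refine Tendsto.atTop_mul_const (Real.exp_pos _) ?_
          refine Tendsto.atTop_div_const two_pos ?_
          exact Tendsto.const_mul_atTop h tendsto_id
        exact (h1.eventually_gt_atTop _).mono fun _ h2 _ => h2
      · exact Eventually.of_forall fun _ h1 => absurd h1 h
  exact h

/-- **The margin of the leaf `A1` near the diagonal.** -/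
theorem lwA1 (n : ℕ) (hS : H747.A.RowSup n) (μ₀ : Cst → ℝ) (hμ : ∀ q, 0 < μ₀ q)
    (κ₀ : Cst → ℝ) :
    ∃ c : Cst → ℝ, H455.E.NoR c ∧ EvC fun q => 0 < c q ∧ ∀ d : Pk n, PkOk q d → ∀ z,
      d.ch q .A1 z ≠ 0 → qq z ≤ n →
      c q / q.R * d.E q z ≤ H850.E.lw (H747.SW.MA d.sx d.sy (d.W q) (mA μ₀ q d) (κ₀ q)) z := by
  refine ⟨fun q => q.σ * q.rT ^ 2 * q.c₀ ^ 2 / 1228800, fun _ _ => rfl, ?_⟩
  have hc : EvC fun q => q.c₀ ≤ 2 :=
    EvC.at_c₀ (fun _ t => t ≤ 2) fun _ => sml_le (by norm_num)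
  have hε : EvC fun q => 0 < (1 : ℝ) / (2 * (n + 1)) → q.ε ≤ 1 / (2 * (n + 1)) :=
    EvC.ε_le (fun _ => 1 / (2 * (n + 1))) fun _ => rfl
  have hA := hS .A1 (by simp)
  refine ((EvC.pos.and hc).and ((hε.and (ev_r₁ n)).and (hA.and (EvC.rq n)))).mono ?_
  rintro q ⟨⟨⟨⟨a1, a2, a3, a4, a5, a6, a7, a8, a9, a10⟩, ⟨b1, b2, b3, b4, b5, b6, b7⟩, c1, c2, c3,
    c4, c5, c6⟩, hc2⟩, ⟨e1, e2⟩, e3, e4⟩
  have hn : (0 : ℝ) ≤ n := Nat.cast_nonneg n
  have hε' : (n : ℝ) * q.ε ≤ 1 / 2 := by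
    have h1 := e1 (by positivity)
    rw [le_div_iff₀ (by positivity)] at h1
    nlinarith
  refine ⟨?_, fun d hd z hz hq => ?_⟩
  · show 0 < q.σ * q.rT ^ 2 * q.c₀ ^ 2 / 1228800
    positivity
  show q.σ * q.rT ^ 2 * q.c₀ ^ 2 / 1228800 / q.R * d.E q z ≤ _
  obtain ⟨⟨g1, -⟩, h2, h3⟩ := (e3 d hd).2 (subset_tsupport _ (Function.mem_support.2 hz))
  have hr2 : 0 < d.r2 z := lt_of_le_of_lt (sq_nonneg _) g1
  have hq2 : d.r2 z ≤ 2 * n := by
    have := ((e4 d hd).2 z).2.2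
    have h4 : d.r2 z = 2 * rq (gi d.s₁) z := rfl
    rw [h4]
    linarith
  have hr1 : rr d z < q.r₁ * Real.exp (-1) :=
    lt_of_le_of_lt (Real.sqrt_le_sqrt hq2) (e2 b3)
  have hG := GG_in hd a2 hr2 hr1
  have hE : 0 < d.E q z := Real.exp_pos _
  have hSl : q.c₀ ^ 2 / 8 ≤ prS q.e₁ (d.r2 z) := by
    have h5 : (q.c₀ / 2) ^ 2 / 2 ≤ prS q.e₁ ((q.c₀ / 2) ^ 2) :=
      H281.EP.prS_ge1 a2 (sq_nonneg _) (by nlinarith [mul_nonneg a6.le (sub_nonneg.2 hc2)])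
    have h6 : prS q.e₁ ((q.c₀ / 2) ^ 2) ≤ prS q.e₁ (d.r2 z) :=
      H281.EP.prS_mono a2 (mem_Ici.2 (sq_nonneg _)) (mem_Ici.2 hr2.le) g1.le
    have e7 : (q.c₀ / 2) ^ 2 / 2 = q.c₀ ^ 2 / 8 := by ring
    rw [e7] at h5
    exact h5.trans h6
  have hGE : q.c₀ ^ 2 / 8 * d.E q z ≤ GG q d z := by
    rw [hG]
    calc q.c₀ ^ 2 / 8 * d.E q z = d.E q z * (q.c₀ ^ 2 / 8) := mul_comm _ _
      _ ≤ d.E q z * prS q.e₁ (d.r2 z) := mul_le_mul_of_nonneg_left hSl hE.le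
  have hG0 : 0 ≤ GG q d z := le_trans (by positivity) hGE
  have hN : 1 ≤ d.N q z := c1.trans (hd.N_ge _)
  have hNG : NG q d z = d.N q z + GG q d z := rfl
  have hNG1 : 1 ≤ NG q d z := by rw [hNG]; linarith
  have hNGE : q.c₀ ^ 2 / 8 * d.E q z ≤ NG q d z := by rw [hNG]; linarith
  have hNG0 : 0 ≤ NG q d z := zero_le_one.trans hNG1
  have hNG3 : NG q d z ≤ NG q d z ^ 3 := by
    have e8 : NG q d z ^ 3 = NG q d z * NG q d z ^ 2 := by ring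
    rw [e8]
    exact le_mul_of_one_le_right hNG0 (one_le_pow₀ hNG1)
  have hR : 0 < q.R := by linarith
  have hm : q.σ / (400 * q.R) * NG q d z ≤ mA μ₀ q d z := by
    have h5 : 0 ≤ μ₀ q * (GG q d z / rr d z) :=
      mul_nonneg (hμ q).le (div_nonneg hG0 (Real.sqrt_nonneg _))
    unfold mA
    linarith
  have key : ∀ F X : ℝ, 1 / 2 * X ≤ F → (q.rT / 8 * NG q d z) ^ 2 < X →
      3 * (q.σ * q.rT ^ 2 * q.c₀ ^ 2 / 1228800 / q.R * d.E q z) ≤ mA μ₀ q d z * F := by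
    intro F X hF hX
    have e9 : (q.rT / 8 * NG q d z) ^ 2 = q.rT ^ 2 * NG q d z ^ 2 / 64 := by ring
    have h5 : q.rT ^ 2 * NG q d z ^ 2 / 128 ≤ F := by linarith
    have h6 : 0 ≤ q.rT ^ 2 * NG q d z ^ 2 / 128 := by positivity
    have h7 : 0 ≤ q.σ / (400 * q.R) * NG q d z := by positivity
    have h8 := mul_le_mul hm h5 h6 (h7.trans hm)
    refine le_trans ?_ h8
    have e5 : q.σ / (400 * q.R) * NG q d z * (q.rT ^ 2 * NG q d z ^ 2 / 128) =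
        q.σ * q.rT ^ 2 / (51200 * q.R) * NG q d z ^ 3 := by
      field_simp
      ring
    have e6 : 3 * (q.σ * q.rT ^ 2 * q.c₀ ^ 2 / 1228800 / q.R * d.E q z) =
        q.σ * q.rT ^ 2 / (51200 * q.R) * (q.c₀ ^ 2 / 8 * d.E q z) := by
      field_simp
      ring
    rw [e5, e6]
    exact mul_le_mul_of_nonneg_left (hNGE.trans hNG3) (by positivity)
  exact H850.E.lw_MA (key _ _ (F_x hd hε' _ z) h2) (key _ _ (F_y hd hε' _ z) h3)

end Vale.Agent.P088.R2.H294.E
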