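import Vale.Agent.P088.R2.H165.NF.J
import Vale.Agent.P088.R2.H912.A.Sup

/-!
# P088, stage 3, EST': the layer `r`: the payments between zone II (`z2a`, `z2b`) and `A1`
-/

open Set Filter
open scoped Topology ContDiff Matrix

noncomputable section

namespace Vale.Agent.P088.R2.H294.E

open Vale.Agent.P088.LR Vale.Agent.P088.HY Vale.Agent.P088.R2.H961.GW Vale.Agent.P088.R2.H464.Cu
open Vale.Agent.P088.R2.H31.EP Vale.Agent.P088.R2.H551.E
open Vale.Agent.P088.R2.H455.E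
open Vale.Agent.P088.R2.H558.G
open Vale.Agent.P088.R2.H165.NF
open Vale.Agent.P088.R2.H867.EP (Cut Zo path sd Near Off)
open Vale.Agent.P088.R2.H867.Z (sq1 sqp Zc sq1_nn sqp_nn Zc_nn)
open Vale.Agent.P088.R2.H747.A (GG mA Wx2 Wy2)

variable {n : ℕ} {q : Cst} {d : Pk n} {z : VV n} {k : Zo} {L : Lc n}

/-! ## The forms -/

/-- **Row KZ** (zone II): the bounds of the convexity weight where `z2a` or `z2b` is alive. -/
def RowKz (L : Lc n) : Prop := ∃ C : Cst → ℝ, NB_M₀ C ∧ EvC fun q => 0 ≤ C q ∧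
  ∀ d : Pk n, PkOk q d → ∀ z, q.c₀ ^ 2 ≤ d.r2 z → (d.ch q .z2a z ≠ 0 ∨ d.ch q .z2b z ≠ 0) →
    1 ≤ L.kz q d z ∧ L.kz q d z ≤ C q * d.m q z

/-! ## Constants -/

theorem nb_ηM {α : Type*} {f : Cst → α} (h : NB_ηc f) : NB_M₀ f := fun q => by
  rw [← h q.b_M₀, ← h q]
  rfl

/-- The bound of `34 C₂ Z`. -/
def Cz (L : Lc n) (C : Cst → ℝ) (q : Cst) : ℝ :=
  34 * (L.C2 q * (L.K2 q * (4 * q.c₀ ^ 2 * Bz n q * (1 + (q.aC / q.c₀ ^ 2 + C q)) ^ 2 + Bz n q)))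

theorem Cz_nb (hL : L.Ok) {C : Cst → ℝ} (hC : NB_M₀ C) : NB_M₀ (Cz L C) := fun q => by
  have h1 := nb_ηM hL.C2.2 q
  have h2 := nb_ηM hL.K2.2 q
  have h3 := hC q
  unfold Cz
  rw [h1, h2, h3]
  rfl

theorem Cz_nn (hL : L.Ok) {C : Cst → ℝ} (q : Cst) : 0 ≤ Cz L C q := by
  have h1 := hL.C2.1 q
  have h2 := hL.K2.1 q
  have h3 := Bz_one n q
  unfold Cz
  positivity

/-- `Z` of zone II in the layer. -/
theorem Zc_le (hL : L.Ok) (hq : NC n q) (h : PkOk q d) (hz : Ly q d k z) {x C : ℝ}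
    (P : Pt L q d k x z) (hE : d.N q z ≤ q.aC * d.E q z) (hC : 0 ≤ C) {κ : VV n → ℝ}
    (k1 : 1 ≤ κ z) (k2 : κ z ≤ C * d.m q z) :
    0 ≤ Zc (L.K2 q) 1 (rq (gi d.s₁)) (d.E q) (d.N q) κ (d.ch q k) z ∧
    Zc (L.K2 q) 1 (rq (gi d.s₁)) (d.E q) (d.N q) κ (d.ch q k) z ≤
      L.K2 q * (4 * q.c₀ ^ 2 * Bz n q * (1 + (q.aC / q.c₀ ^ 2 + C)) ^ 2 + Bz n q) := by
  have hK := (hL.K2.1 q).le
  have hE0 := P.E0
  have hN0 : 0 < d.N q z := h.N_pos hq.nr.M1 _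
  have c0 := hq.c0
  have aC := hq.aC
  have r1 : q.c₀ ^ 2 ≤ 2 * rq (gi d.s₁) z := hz.r1
  have r2 : 2 * rq (gi d.s₁) z ≤ 4 * q.c₀ ^ 2 := hz.r2
  have hr : 0 < 2 * rq (gi d.s₁) z := lt_of_lt_of_le (by positivity) r1
  have hρ : 0 ≤ rq (gi d.s₁) z := by linarith
  have hB := Bz_one n q
  refine ⟨Zc_nn hK zero_le_one hρ (by linarith), ?_⟩
  have hm : d.m q z = d.E q z * (2 * rq (gi d.s₁) z) := rfl
  have e1 : (d.N q z + κ z) / (d.E q z * (2 * rq (gi d.s₁) z)) ≤ q.aC / q.c₀ ^ 2 + C := by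
    rw [div_le_iff₀ (by positivity)]
    have a1 : d.N q z ≤ q.aC / q.c₀ ^ 2 * (d.E q z * (2 * rq (gi d.s₁) z)) := by
      calc d.N q z ≤ q.aC * d.E q z := hE
        _ = q.aC / q.c₀ ^ 2 * (d.E q z * q.c₀ ^ 2) := by field_simp
        _ ≤ _ := by gcongr
    have a2 : κ z ≤ C * (d.E q z * (2 * rq (gi d.s₁) z)) := by rw [← hm]; exact k2
    linarith
  have e0 : 0 ≤ (d.N q z + κ z) / (d.E q z * (2 * rq (gi d.s₁) z)) := by positivity
  have s1 := sq1_nn (d.ch q k) z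
  have s2 := sqp_nn (d.ch q k) z
  have c1 := P.c1
  have c2 := P.c2
  unfold H867.Z.Zc
  rw [one_mul]
  have key : 2 * rq (gi d.s₁) z * sq1 (d.ch q k) z *
      (1 + (d.N q z + κ z) / (d.E q z * (2 * rq (gi d.s₁) z))) ^ 2 + sqp (d.ch q k) z ≤
      4 * q.c₀ ^ 2 * Bz n q * (1 + (q.aC / q.c₀ ^ 2 + C)) ^ 2 + Bz n q := by
    gcongr
  have num0 : 0 ≤ L.K2 q * (4 * q.c₀ ^ 2 * Bz n q * (1 + (q.aC / q.c₀ ^ 2 + C)) ^ 2 + Bz n q) := by
    positivity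
  rw [div_le_iff₀ (by linarith)]
  calc L.K2 q * (2 * rq (gi d.s₁) z * sq1 (d.ch q k) z *
      (1 + (d.N q z + κ z) / (d.E q z * (2 * rq (gi d.s₁) z))) ^ 2 + sqp (d.ch q k) z) ≤
      L.K2 q * (4 * q.c₀ ^ 2 * Bz n q * (1 + (q.aC / q.c₀ ^ 2 + C)) ^ 2 + Bz n q) :=
        mul_le_mul_of_nonneg_left key hK
    _ ≤ _ := le_mul_of_one_le_right num0 k1

/-! ## Zone A pays zone II -/

/-- The threshold of `x = E + s N`. -/
def Tz (L : Lc n) (C : Cst → ℝ) (q : Cst) : ℝ :=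
  (Cz L C q * (1 + 2 * (q.c₀ ^ 2)⁻¹) + 6 * Cz L C q + 12 * Cz L C q / aF q) / aM L q

theorem Tz_nb (hL : L.Ok) {C : Cst → ℝ} (hC : NB_M₀ C) : NB_M₀ (Tz L C) := fun q => by
  have h1 := Cz_nb hL hC q
  have h3 := nb_M (aM_nb hL) q
  unfold Tz
  rw [h1, h3]
  rfl

theorem aM_x (hq : NC n q) {x T : ℝ} (P : Pt L q d k x z)
    (hE : d.N q z ≤ q.aC * d.E q z) (hT : T * q.aC ≤ q.M₀) : T ≤ x := by
  have h1 := P.N1
  have h2 := P.Ex
  have aC := hq.aC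
  have h3 : T * q.aC ≤ x * q.aC := by nlinarith
  exact le_of_mul_le_mul_right h3 aC

theorem pay_II_A (hL : L.Ok) (hq : NC n q) (h : PkOk q d) (hz : Ly q d k z) {x : ℝ}
    {C : Cst → ℝ} (P : Pt L q d k x z) (hE : d.N q z ≤ q.aC * d.E q z) (hC : 0 ≤ C q)
    (k1 : 1 ≤ L.kz q d z) (k2 : L.kz q d z ≤ C q * d.m q z) (hT : Tz L C q * q.aC ≤ q.M₀)
    (a b : VV n → ℝ) :
    34 * den d q (H165.Tab.cII (nu L.kz q d) (L.C2 q)
      (Zc (L.K2 q) 1 (rq (gi d.s₁)) (d.E q) (d.N q) (L.kz q d) (d.ch q k))) a b z ≤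
      den d q (H747.SW.MA d.sx d.sy (d.W q) (mA L.μA q d) (L.kA q)) a b z := by
  obtain ⟨z0, z1⟩ := Zc_le hL hq h hz P hE hC (κ := L.kz q d) k1 k2
  have hC2 := (hL.C2.1 q).le
  have c0 := hq.c0
  set Z := Zc (L.K2 q) 1 (rq (gi d.s₁)) (d.E q) (d.N q) (L.kz q d) (d.ch q k) with hZ
  set e := 34 * (L.C2 q * Z z) with he
  have e0 : 0 ≤ e := by positivity
  have e1 : e ≤ Cz L C q := by
    unfold Cz
    rw [he]
    gcongr
  have x1 := aM_x hq P hE hT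
  have am := aM_pos hL hq
  have af := aF_pos hq
  have Cn := Cz_nn hL (C := C) q
  have hE0 := P.E0
  have hN0 : 0 < d.N q z := h.N_pos hq.nr.M1 _
  have m1 := P.m1
  -- the threshold
  have t0 : Cz L C q * (1 + 2 * (q.c₀ ^ 2)⁻¹) + 6 * Cz L C q + 12 * Cz L C q / aF q ≤
      aM L q * x := by
    have h1 := mul_le_mul_of_nonneg_left x1 am.le
    unfold Tz at h1
    rwa [mul_div_cancel₀ _ am.ne'] at h1
  have p1 : 0 ≤ Cz L C q * (1 + 2 * (q.c₀ ^ 2)⁻¹) := by positivity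
  have p2 : 0 ≤ 12 * Cz L C q / aF q := by positivity
  have hr : 0 ≤ d.r2 z := le_trans (by positivity) hz.r1
  have hr1 : (d.r2 z)⁻¹ ≤ (q.c₀ ^ 2)⁻¹ := inv_anti₀ (by positivity) hz.r1
  have hri : 0 ≤ (d.r2 z)⁻¹ := by positivity
  have q1 : e + 2 * (e * (d.r2 z)⁻¹) ≤ mA L.μA q d z := by
    have h1 : e * (d.r2 z)⁻¹ ≤ Cz L C q * (q.c₀ ^ 2)⁻¹ := by gcongr
    linarith
  have q2 : 6 * e ≤ mA L.μA q d z := by linarith
  have xN : d.E q z ≤ x := P.Ex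
  have x0 : 0 < x := by linarith
  have q3 : ∀ F : ℝ, aF q * (d.N q z + d.E q z) ^ 2 ≤ F →
      12 * (e * d.E q z ^ 2) ≤ mA L.μA q d z * F := by
    intro F hF
    have h1 : 12 * Cz L C q ≤ aM L q * x * aF q := by
      have h2 : 12 * Cz L C q / aF q ≤ aM L q * x := by linarith
      rwa [div_le_iff₀ af] at h2
    have h3 : d.E q z ^ 2 ≤ (d.N q z + d.E q z) ^ 2 := by nlinarith
    calc 12 * (e * d.E q z ^ 2) = 12 * e * d.E q z ^ 2 := by ring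
      _ ≤ 12 * Cz L C q * d.E q z ^ 2 := by gcongr
      _ ≤ aM L q * x * aF q * (d.N q z + d.E q z) ^ 2 := by gcongr
      _ = aM L q * x * (aF q * (d.N q z + d.E q z) ^ 2) := by ring
      _ ≤ mA L.μA q d z * F := by
        refine mul_le_mul m1 hF (by positivity) (le_trans (by positivity) m1)
  have F1 : 0 ≤ d.sx.F (d.W q) z := le_trans (by positivity) P.f1
  have F2 : 0 ≤ d.sy.F (d.W q) z := le_trans (by positivity) P.f2
  have mn : 0 ≤ mA L.μA q d z := by linarith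
  have key := H338.E.uf_MA (σ := d.sx) (τ := d.sy) (v₁ := fun _ => 0) (v₂ := fun _ => 0)
    (W := d.W q) (a := a) (b := b) (z := z) (m := mA L.μA q d) (κ₀ := L.kA q) (e := e)
    (ν := nu L.kz q d) (by linarith [(hL.kA.1 q).2]) mn F1 F2 e0 hr rfl rfl q1 q2
    (q3 _ P.f1) (q3 _ P.f2)
  have e2 := H338.E.cII_eq (σ := d.sx) (τ := d.sy) (v₁ := fun _ => 0) (v₂ := fun _ => 0)
    (W := d.W q) (a := a) (b := b) (z := z) (C := L.C2 q) (q := 34) (ν := nu L.kz q d) (Z := Z)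
  exact e2.le.trans key

/-! ## Zone II pays zone A -/

/-- The threshold of `e`. -/
def tA (n : ℕ) (B : Cst → ℝ) (q : Cst) : ℝ := 1 / (8 * 34 * 288 * Ba n B q)

theorem tA_sm {B : Cst → ℝ} (hB : NB_c' B) : SmE (tA n B) := by
  refine ⟨fun q => ?_, fun q => ?_⟩
  · unfold tA
    rw [Ba_nb hB q]
  · have h2 := Ba_one n B q
    unfold tA
    positivity

/-- The threshold of `M₀`. -/
def Ta (n : ℕ) (L : Lc n) (e B : Cst → ℝ) (q : Cst) : ℝ :=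
  16 * (34 * (3 / e q * (AM L q * (1 + q.aC) * Ba n B q))) / aF q

theorem Ta_nb (hL : L.Ok) {e B : Cst → ℝ} (he : NB_c' e) (hB : NB_c' B) : NB_c' (Ta n L e B) :=
  fun q => by
    have h2 : q.b_c'.aC = q.aC := rfl
    unfold Ta
    rw [he q, AM_nb hL q, Ba_nb hB q, h2, aF_nb q]

theorem pay_A_II (hL : L.Ok) (hq : NC n q) (h : PkOk q d) (hz : Ly q d k z) {x : ℝ}
    {e B : Cst → ℝ} (P : Pt L q d k x z) (hE : d.N q z ≤ q.aC * d.E q z)
    (k1 : 1 ≤ L.kz q d z) (he : 0 < e q) (h1 : e q ≤ tA n B q)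
    (hd : ∀ i : Fin n, dx i (d.ch q .A1) z ^ 2 ≤ B q ∧ dy i (d.ch q .A1) z ^ 2 ≤ B q)
    (hT : q.aC * Ta n L e B q ≤ q.M₀) (a b : VV n → ℝ) :
    34 * den d q (H747.SW.coA d.sx d.sy (d.W q) (mA L.μA q d) (d.ch q .A1) (e q)) a b z ≤
      den d q (H165.Tab.MII (nu L.kz q d)) a b z := by
  have c0 := hq.c0
  have aC := hq.aC
  have hE0 := P.E0
  have hN0 : 0 < d.N q z := h.N_pos hq.nr.M1 _
  have am := aM_pos hL hq
  have af := aF_pos hq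
  have AMp := AM_pos hL q
  have x1 := P.xE
  have x0 : 0 < x := lt_of_lt_of_le hE0 P.Ex
  have mn : 0 ≤ mA L.μA q d z := le_trans (by positivity) P.m1
  have hB' : 1 ≤ Ba n B q := Ba_one n B q
  have cb := cb_of hq h hd
  have n1 : 34 * (288 * e q * Ba n B q) ≤ 1 / 8 * L.kz q d z := by
    have h2 : e q * (8 * 34 * 288 * Ba n B q) ≤ 1 := by
      unfold tA at h1
      rwa [le_div_iff₀ (by positivity)] at h1
    linarith
  have hx : x ≤ (1 + q.aC) * d.E q z := by linarith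
  have E1 : 16 * (34 * (3 / e q * (AM L q * (1 + q.aC) * Ba n B q))) ≤
      aF q * d.E q z := by
    have h2 : q.aC * Ta n L e B q ≤ q.aC * d.E q z := hT.trans (P.N1.trans hE)
    have h3 : Ta n L e B q ≤ d.E q z := le_of_mul_le_mul_left h2 aC
    unfold Ta at h3
    rw [div_le_iff₀ af] at h3
    linarith
  have n2 : ∀ F : ℝ, aF q * (d.N q z + d.E q z) ^ 2 ≤ F →
      34 * (3 / e q * (mA L.μA q d z * Ba n B q)) ≤ 1 / 16 * (L.kz q d z * F) := by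
    intro F hF
    have h2 : mA L.μA q d z ≤ AM L q * ((1 + q.aC) * d.E q z) :=
      P.m2.trans (mul_le_mul_of_nonneg_left hx AMp.le)
    have h3 : 0 ≤ F := le_trans (by positivity) hF
    have h4 : d.E q z ^ 2 ≤ (d.N q z + d.E q z) ^ 2 := by nlinarith
    calc 34 * (3 / e q * (mA L.μA q d z * Ba n B q)) ≤
          34 * (3 / e q * (AM L q * ((1 + q.aC) * d.E q z) * Ba n B q)) := by gcongr
      _ = 1 / 16 * (16 * (34 * (3 / e q * (AM L q * (1 + q.aC) * Ba n B q)))) *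
          d.E q z := by ring
      _ ≤ 1 / 16 * (aF q * d.E q z) * d.E q z := by gcongr
      _ = 1 / 16 * (aF q * d.E q z ^ 2) := by ring
      _ ≤ 1 / 16 * (aF q * (d.N q z + d.E q z) ^ 2) := by gcongr
      _ ≤ 1 / 16 * (1 * F) := by linarith
      _ ≤ 1 / 16 * (L.kz q d z * F) := by gcongr
  have hr : 0 ≤ d.r2 z := le_trans (by positivity) hz.r1
  exact H338.E.coA_MII (σ := d.sx) (τ := d.sy) (v₁ := fun _ => 0) (v₂ := fun _ => 0)
    (W := d.W q) (a := a) (b := b) (z := z) (m := mA L.μA q d) (χ := d.ch q .A1) (η := e q)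
    (B := Ba n B q) (q := 34) (ν := nu L.kz q d) he (by norm_num) mn (by linarith) hr
    (show (0 : ℝ) ≤ L.kz q d z by linarith) cb P.v1 P.v2 n1 (n2 _ P.f1) (n2 _ P.f2)

/-! ## The rows -/

theorem near_II (hk : k = .z2a ∨ k = .z2b) : Near k ∧ k ≠ .z0 := by
  rcases hk with rfl | rfl <;> exact ⟨by unfold Near; simp, by simp⟩

theorem off_A1 : Off .A1 := by unfold Off; simp

/-- **The pairs `(z2a, A1)`, `(z2b, A1)`.** -/
theorem pay_z2_A1 (hL : L.Ok) (hK : RowKz L) (hk : k = .z2a ∨ k = .z2b) : PayEW L k .A1 := by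
  obtain ⟨C, hC, hK⟩ := hK
  refine PayEW.all fun e he => ?_
  have hT : EvC fun q => Tz L C q * q.aC ≤ q.M₀ := ev_M₀ fun q => by
    show Tz L C q.b_M₀ * q.aC = _
    rw [Tz_nb hL hC q]
  refine ((hK.and hT).and ((evNC n).and (H912.A.rowWX n))).mono ?_
  rintro q ⟨⟨⟨hC0, hK⟩, hT⟩, hq, hW⟩ d h z h1 h2 a b
  have hz := ly_of hq h (near_II hk).1 off_A1 h1 h2
  have P := pt_of hL hq h hz (hW d h .A1 (by simp) z h2)
  have hN : 0 < d.N q z := h.N_pos hq.nr.M1 _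
  have hE := sd_e0 h1 (near_II hk).1 (near_II hk).2 (hq.nr.sm d h).cp hq.aC hN
  obtain ⟨k1, k2⟩ := hK d h z hz.r1 (by rcases hk with rfl | rfl; exacts [Or.inl h1, Or.inr h1])
  have := pay_II_A hL hq h hz P hE hC0 k1 k2 hT a b
  rcases hk with rfl | rfl <;> exact this

/-- **The pairs `(A1, z2a)`, `(A1, z2b)`.** -/
theorem pay_A1_z2 (hL : L.Ok) (hK : RowKz L) (hD : RowD n) (hk : k = .z2a ∨ k = .z2b) :
    PayEF L .A1 k := by
  obtain ⟨C, hC, hK⟩ := hK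
  obtain ⟨B, hB, hD⟩ := hD
  refine ⟨tA n B, tA_sm hB, fun e he hth => ?_⟩
  have hT : EvC fun q => q.aC * Ta n L e B q ≤ q.M₀ := ev_M₀ (nb_M fun q => by
    have h2 : q.b_c'.aC = q.aC := rfl
    rw [Ta_nb hL he.1 hB q, h2])
  refine ((hK.and (hD.and hT)).and ((evNC n).and (H912.A.rowWX n))).mono ?_
  rintro q ⟨⟨⟨hC0, hK⟩, hD, hT⟩, hq, hW⟩ d h z h0 h1 h2 a b
  have hz := ly_of hq h (near_II hk).1 off_A1 h2 h1
  have P := pt_of hL hq h hz (hW d h .A1 (by simp) z h1)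
  have hN : 0 < d.N q z := h.N_pos hq.nr.M1 _
  have hE := sd_e0 h2 (near_II hk).1 (near_II hk).2 (hq.nr.sm d h).cp hq.aC hN
  obtain ⟨k1, k2⟩ := hK d h z hz.r1 (by rcases hk with rfl | rfl; exacts [Or.inl h2, Or.inr h2])
  have := pay_A_II hL hq h hz P hE k1 (he.2 q) (hth q) (hD d h z h0 h1) hT a b
  rcases hk with rfl | rfl <;> exact this

end Vale.Agent.P088.R2.H294.E
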