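import Vale.Agent.P088.R2.H294.E.NA2
import Vale.Agent.P088.R2.H238.Z.KeP

/-!
# P088, stage 3, EST': the payments between zone II and `A1` for the convexity weight of `H942`
-/

open Set Filter
open scoped Topology ContDiff Matrix

noncomputable section

namespace Vale.Agent.P088.R2.H294.E

open Vale.Agent.P088.R2.H31.EP
open Vale.Agent.P088.R2.H455.E
open Vale.Agent.P088.R2.H867.EP (Zo)

variable {n : ℕ} {k : Zo} {L : Lc n}

/-- **Row KZ** for the convexity weight of zone II. -/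
theorem rowKz (hn : 1 ≤ n) (hk : L.kz = H942.Pk.kz) : RowKz L := by
  refine ⟨fun _ => 1, fun _ => rfl, ?_⟩
  refine (H238.Z.ke hn (fun _ => 1) fun _ => rfl).mono fun q h => ?_
  refine ⟨zero_le_one, fun d ok z _ hz => ?_⟩
  obtain ⟨h1, h2⟩ := h d ok z hz
  rw [hk]
  refine ⟨le_trans ?_ h1, by linarith⟩
  have : 0 ≤ d.N q z ^ 2 / d.m q z ^ 2 := by positivity
  linarith

/-- **The pairs `(z2a, A1)`, `(z2b, A1)`.** -/
theorem pay_z2_A1' (hn : 1 ≤ n) (hL : L.Ok) (hz : L.kz = H942.Pk.kz)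
    (hk : k = .z2a ∨ k = .z2b) : H558.G.PayEW L k .A1 :=
  pay_z2_A1 hL (rowKz hn hz) hk

/-- **The pairs `(A1, z2a)`, `(A1, z2b)`.** -/
theorem pay_A1_z2' (hn : 1 ≤ n) (hL : L.Ok) (hz : L.kz = H942.Pk.kz) (hD : H165.NF.RowD n)
    (hk : k = .z2a ∨ k = .z2b) : H165.NF.PayEF L .A1 k :=
  pay_A1_z2 hL (rowKz hn hz) hD hk

end Vale.Agent.P088.R2.H294.E
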