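import Vale.Agent.P088.R2.H294.E.NNs
import Vale.Agent.P088.R2.H168.INF.Spec2

/-!
# P088, stage 3, EST', row NN: the literal letter of the leaf `iH`
-/

open Set Filter
open scoped ContDiff Topology

noncomputable section

namespace Vale.Agent.P088.R2.H294.E

open Vale.Agent.P088.LR
open Vale.Agent.P088.HY (VV)
open Vale.Agent.P088.R2.H31.EP
open Vale.Agent.P088.R2.H551.E (Q8)
open Vale.Agent.P088.R2.H850.E (Nn)

variable {n : ℕ}

/-- The letter of `iH` is of the form `MSg`. -/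
theorem MiH_eq : H168.INF.MiH (n := n) =
    MSg (1 / 600) (1 / 400) (1 / 40000) H168.INF.hX H168.INF.hY := by
  funext q d
  unfold H168.INF.MiH MSg H168.INF.lmH H168.INF.muH
  congr 1 <;> funext z <;> ring

/-- **Row NN, leaf `iH`** (literal letter). -/
theorem nn_iH_lit (n : ℕ) : EvC fun q => (0 < (1 : ℝ) / 4 ∧ 0 < 1 / 600 * (q.σ * q.M₀) / 4) ∧
    ∀ d : Pk n, PkOk q d → ∀ z, Nn (H168.INF.MiH q d) z ∧
      4 * (1 / 4) ≤ (H168.INF.MiH q d).κ z ∧
      4 * (1 / 600 * (q.σ * q.M₀) / 4 / q.R) ≤ (H168.INF.MiH q d).ζ₁ z ∧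
      4 * (1 / 600 * (q.σ * q.M₀) / 4 / q.R) ≤ (H168.INF.MiH q d).ζ₂ z := by
  rw [MiH_eq]
  refine nn_of_MSg (a := fun _ => 1 / 600) (b := fun _ => 1 / 400) (c := fun _ => 1 / 40000)
    (fun q => ⟨by norm_num, by norm_num, by norm_num⟩) (EvC.pos.mono ?_)
  rintro q ⟨-, -, -, -, -, -, -, hR⟩ d ok z
  have h1 := ok.Θd0 (by linarith) (d.l z.1)
  have h2 := ok.Θd0 (by linarith) (d.l z.2)
  have h3 := M₀_le ok (d.l (d.P z.1) + d.l (d.P z.2))
  refine ⟨?_, ?_⟩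
  · unfold H168.INF.hX H168.INF.hN; linarith
  · unfold H168.INF.hY H168.INF.hN; linarith

end Vale.Agent.P088.R2.H294.E
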