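import Vale.Agent.P088.R2.H380.INF.Let
import Vale.Agent.P088.R2.H294.E.A1
import Vale.Agent.P088.R2.H455.E.Top
import Vale.Agent.P088.R2.H31.EP.Thx

/-!
# P088, stage 3, EST', row NN: the leaves `iS` and `iH`

The letters of the zones at infinity have nonnegative coefficients, `κ = 1` and
`ζ₁, ζ₂ ≥ a σ M₀ / R`.
-/

open Set Filter
open scoped ContDiff Topology

noncomputable section

namespace Vale.Agent.P088.R2.H294.E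

open Vale.Agent.P088.LR
open Vale.Agent.P088.HY (VV)
open Vale.Agent.P088.R2.H31.EP
open Vale.Agent.P088.R2.H551.E (Q8)
open Vale.Agent.P088.R2.H850.E (Nn)
open Vale.Agent.P088.R2.H455.E (NoM)

variable {n : ℕ} {q : Cst} {d : Pk n}

/-- `F ≥ 0` in both slots. -/
theorem F_xn (h : PkOk q d) (hε : n * q.ε ≤ 1 / 2) (W : VV n → ℝ) (z : VV n) :
    0 ≤ d.sx.F W z := by
  refine le_trans ?_ (F_x h hε W z)
  have h3 : 0 ≤ ∑ i, d.sx.D i W z ^ 2 := Finset.sum_nonneg fun _ _ => sq_nonneg _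
  linarith

theorem F_yn (h : PkOk q d) (hε : n * q.ε ≤ 1 / 2) (W : VV n → ℝ) (z : VV n) :
    0 ≤ d.sy.F W z := by
  refine le_trans ?_ (F_y h hε W z)
  have h3 : 0 ≤ ∑ i, d.sy.D i W z ^ 2 := Finset.sum_nonneg fun _ _ => sq_nonneg _
  linarith

/-- The letter of the zones at infinity: `κ = 1`, `ζᵢ = a s nᵢ`, `wᵢ = b s nᵢ Fᵢ + c (s nᵢ)²`,
`s = σ / R`. -/
def MSg (a b c : ℝ) (nx ny : Cst → Pk n → VV n → ℝ) (q : Cst) (d : Pk n) : Q8 (VV n) where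
  κ _ := 1
  ζ₁ z := a * ((q.σ / q.R) * nx q d z)
  ζ₂ z := a * ((q.σ / q.R) * ny q d z)
  ζy _ := 0
  w₁ z := b * ((q.σ / q.R) * nx q d z) * d.sx.F (d.W q) z + c * ((q.σ / q.R) * nx q d z) ^ 2
  w₂ z := b * ((q.σ / q.R) * ny q d z) * d.sy.F (d.W q) z + c * ((q.σ / q.R) * ny q d z) ^ 2
  wb _ := 0
  wc _ := 0

/-- The smallness used here. -/
theorem ev_ε (n : ℕ) : EvC fun q => (n : ℝ) * q.ε ≤ 1 / 2 := by
  have hε : EvC fun q => 0 < (1 : ℝ) / (2 * (n + 1)) → q.ε ≤ 1 / (2 * (n + 1)) :=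
    EvC.ε_le (fun _ => 1 / (2 * (n + 1))) fun _ => rfl
  refine (hε.and EvC.pos).mono fun q h => ?_
  have h1 := h.1 (by positivity)
  have h0 : 0 < q.ε := h.2.2.2.2.2.1
  rw [le_div_iff₀ (by positivity)] at h1
  have hn : (0 : ℝ) ≤ n := Nat.cast_nonneg n
  linarith

theorem nn_MSg {a b c : ℝ} (ha : 0 ≤ a) (hb : 0 ≤ b) (hc : 0 ≤ c)
    {nx ny : Cst → Pk n → VV n → ℝ} (h : PkOk q d) (hε : n * q.ε ≤ 1 / 2) (hσ : 0 < q.σ)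
    (hR : 0 < q.R) (hM : 0 ≤ q.M₀) {z : VV n} (hx : q.M₀ ≤ nx q d z) (hy : q.M₀ ≤ ny q d z) :
    Nn (MSg a b c nx ny q d) z ∧ 1 ≤ (MSg a b c nx ny q d).κ z ∧
      a * (q.σ * q.M₀) / q.R ≤ (MSg a b c nx ny q d).ζ₁ z ∧
      a * (q.σ * q.M₀) / q.R ≤ (MSg a b c nx ny q d).ζ₂ z := by
  have hs : 0 ≤ q.σ / q.R := by positivity
  have F1 := F_xn h hε (d.W q) z
  have F2 := F_yn h hε (d.W q) z
  have x0 : 0 ≤ nx q d z := hM.trans hx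
  have y0 : 0 ≤ ny q d z := hM.trans hy
  have e : ∀ t : ℝ, q.M₀ ≤ t → a * (q.σ * q.M₀) / q.R ≤ a * ((q.σ / q.R) * t) := fun t ht => by
    calc a * (q.σ * q.M₀) / q.R = a * ((q.σ / q.R) * q.M₀) := by ring
      _ ≤ a * ((q.σ / q.R) * t) := by gcongr
  refine ⟨⟨?_, ?_, ?_, le_rfl, ?_, ?_, le_rfl, le_rfl⟩, le_rfl, e _ hx, e _ hy⟩
  · exact zero_le_one
  · show 0 ≤ a * ((q.σ / q.R) * nx q d z)
    positivity
  · show 0 ≤ a * ((q.σ / q.R) * ny q d z)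
    positivity
  · show 0 ≤ b * ((q.σ / q.R) * nx q d z) * d.sx.F (d.W q) z + c * ((q.σ / q.R) * nx q d z) ^ 2
    positivity
  · show 0 ≤ b * ((q.σ / q.R) * ny q d z) * d.sy.F (d.W q) z + c * ((q.σ / q.R) * ny q d z) ^ 2
    positivity

/-- **Row NN for the letters `MSg`**: `κ₀ = 1 / 4`, `ζ₀ = a σ M₀ / 4`. -/
theorem nn_of_MSg {a b c : Cst → ℝ} (h0 : ∀ q, 0 < a q ∧ 0 ≤ b q ∧ 0 ≤ c q)
    {nx ny : Cst → Pk n → VV n → ℝ} (hn : EvC fun q => ∀ d : Pk n, PkOk q d → ∀ z,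
      q.M₀ ≤ nx q d z ∧ q.M₀ ≤ ny q d z) :
    EvC fun q => (0 < (1 : ℝ) / 4 ∧ 0 < a q * (q.σ * q.M₀) / 4) ∧ ∀ d : Pk n, PkOk q d → ∀ z,
      Nn (MSg (a q) (b q) (c q) nx ny q d) z ∧
      4 * (1 / 4) ≤ (MSg (a q) (b q) (c q) nx ny q d).κ z ∧
      4 * (a q * (q.σ * q.M₀) / 4 / q.R) ≤ (MSg (a q) (b q) (c q) nx ny q d).ζ₁ z ∧
      4 * (a q * (q.σ * q.M₀) / 4 / q.R) ≤ (MSg (a q) (b q) (c q) nx ny q d).ζ₂ z := by
  refine ((hn.and (ev_ε n)).and EvC.pos).mono ?_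
  rintro q ⟨⟨h1, h2⟩, -, ⟨-, hσ, -⟩, hM, -, -, -, -, hR⟩
  have a0 := (h0 q).1
  have M0 : 0 < q.M₀ := by linarith
  refine ⟨⟨by norm_num, by positivity⟩, fun d ok z => ?_⟩
  obtain ⟨k1, k2, k3, k4⟩ := nn_MSg (h0 q).1.le (h0 q).2.1 (h0 q).2.2 ok h2 hσ
    (by linarith) M0.le (h1 d ok z).1 (h1 d ok z).2
  have e : 4 * (a q * (q.σ * q.M₀) / 4 / q.R) = a q * (q.σ * q.M₀) / q.R := by ring
  rw [e]
  exact ⟨k1, by norm_num; exact k2, k3, k4⟩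

/-- The letter of `iS` is of this form. -/
theorem MiS_eq : H380.INF.MiS (n := n) =
    MSg (1 / 600) (1 / 200) (1 / 10 ^ 4) H380.INF.nX H380.INF.nY := by
  funext q d
  unfold H380.INF.MiS MSg H380.INF.lmS H380.INF.muS
  congr 1 <;> funext z <;> ring

/-- **Row NN, leaf `iS`**. -/
theorem nn_iS (n : ℕ) : EvC fun q => (0 < (1 : ℝ) / 4 ∧ 0 < 1 / 600 * (q.σ * q.M₀) / 4) ∧
    ∀ d : Pk n, PkOk q d → ∀ z, Nn (H380.INF.MiS q d) z ∧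
      4 * (1 / 4) ≤ (H380.INF.MiS q d).κ z ∧
      4 * (1 / 600 * (q.σ * q.M₀) / 4 / q.R) ≤ (H380.INF.MiS q d).ζ₁ z ∧
      4 * (1 / 600 * (q.σ * q.M₀) / 4 / q.R) ≤ (H380.INF.MiS q d).ζ₂ z := by
  rw [MiS_eq]
  refine nn_of_MSg (a := fun _ => 1 / 600) (b := fun _ => 1 / 200) (c := fun _ => 1 / 10 ^ 4)
    (fun q => ⟨by norm_num, by norm_num, by norm_num⟩) (EvC.pos.mono ?_)
  rintro q ⟨-, -, -, -, -, -, -, hR⟩ d ok z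
  have h1 := ok.Θd0 (by linarith) (d.l z.1)
  have h2 := ok.Θd0 (by linarith) (d.l z.2)
  exact ⟨by unfold H380.INF.nX; linarith, by unfold H380.INF.nY; linarith⟩

/-- The slope at the retracted point. -/
def nP (q : Cst) (d : Pk n) (z : VV n) : ℝ := deriv d.Φ (d.u q (d.P z.1, d.P z.2))

/-- `M₀ ≤ Φ'`. -/
theorem M₀_le (h : PkOk q d) (t : ℝ) : q.M₀ ≤ deriv d.Φ t :=
  (h.ph.isΦ.n1 t).trans (h.top.l1 t)

/-- The slopes `N_P + Θ'(l(x))`, `N_P + Θ'(l(y))`. -/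
def nPx (q : Cst) (d : Pk n) (z : VV n) : ℝ := nP q d z + deriv d.Θ (d.l z.1)
def nPy (q : Cst) (d : Pk n) (z : VV n) : ℝ := nP q d z + deriv d.Θ (d.l z.2)

/-- **Row NN, leaf `iH`**, for the letters `MSg a b c` with the slopes `N_P + Θ'`. -/
theorem nn_iH {a b c : Cst → ℝ} (h0 : ∀ q, 0 < a q ∧ 0 ≤ b q ∧ 0 ≤ c q) (n : ℕ) :
    EvC fun q => (0 < (1 : ℝ) / 4 ∧ 0 < a q * (q.σ * q.M₀) / 4) ∧ ∀ d : Pk n, PkOk q d → ∀ z,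
      Nn (MSg (a q) (b q) (c q) nPx nPy q d) z ∧
      4 * (1 / 4) ≤ (MSg (a q) (b q) (c q) nPx nPy q d).κ z ∧
      4 * (a q * (q.σ * q.M₀) / 4 / q.R) ≤ (MSg (a q) (b q) (c q) nPx nPy q d).ζ₁ z ∧
      4 * (a q * (q.σ * q.M₀) / 4 / q.R) ≤ (MSg (a q) (b q) (c q) nPx nPy q d).ζ₂ z := by
  refine nn_of_MSg h0 (EvC.pos.mono ?_)
  rintro q ⟨-, -, -, -, -, -, -, hR⟩ d ok z
  have h1 := ok.Θd0 (by linarith) (d.l z.1)
  have h2 := ok.Θd0 (by linarith) (d.l z.2)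
  have h3 := M₀_le ok (d.u q (d.P z.1, d.P z.2))
  refine ⟨?_, ?_⟩
  · unfold nPx nP; linarith
  · unfold nPy nP; linarith

end Vale.Agent.P088.R2.H294.E
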